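import Mathlib

/-!
# P300: the interface between the torsor over `U = M_{0,5}` and the rest

`Arr G`: five elements of a group satisfying the relations of `E = Γ ⋊ V` (convention of note 13964:
`T0 c T0⁻¹ = δ c δ⁻¹`).  `NodeTable`: the fifteen node charts.  `TorData`: the coverings `Tot F → U`
of all `G`-sets `F`, with the lifts over the fifteen regions `Rt`.
-/

namespace Vale.Agent.P300.Tor

open Complex

/-- `M_{0,5}` in the coordinates `(x, λ)` -/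
def U : Set (ℂ × ℂ) := {z | z.1 ≠ 0 ∧ z.1 ≠ 1 ∧ z.2 ≠ 0 ∧ z.2 ≠ 1 ∧ z.1 ≠ z.2}

/-- five elements of a group with the relations of `Γ ⋊ V` -/
structure Arr (G : Type) [Group G] where
  (c1 c2 c3 T0 T1 : G)
  r01 : T0 * c1 * T0⁻¹ = (c1 * c2) * c1 * (c1 * c2)⁻¹
  r02 : T0 * c2 * T0⁻¹ = (c1 * c2) * c2 * (c1 * c2)⁻¹
  r03 : T0 * c3 * T0⁻¹ = c3
  r11 : T1 * c1 * T1⁻¹ = c1
  r12 : T1 * c2 * T1⁻¹ = (c2 * c3) * c2 * (c2 * c3)⁻¹
  r13 : T1 * c3 * T1⁻¹ = (c2 * c3) * c3 * (c2 * c3)⁻¹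

/-- the region of a node: star-shaped about the node `(0,0)` -/
def R : Set (ℂ × ℂ) := {w | ∀ t : ℝ, 1 ≤ t → w.1 ≠ t ∧ w.2 ≠ t ∧ w.1 * w.2 ≠ t}

/-- its logarithmic cover -/
def Rt : Set (ℂ × ℂ) := {z | (exp z.1, exp z.2) ∈ R}

/-- `{u v (1-u) (1-v) (1-uv) ≠ 0}`, the model of `U` in the coordinates of a node -/
def W : Set (ℂ × ℂ) :=
  {w | w.1 ≠ 0 ∧ w.2 ≠ 0 ∧ w.1 ≠ 1 ∧ w.2 ≠ 1 ∧ w.1 * w.2 ≠ 1}

/-- The (inverses of the) fifteen node charts, `(u,v) ∈ W ↦ (x,λ) ∈ U`.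
`0, …, 4` are the five vertices of the chamber `0 < λ < x < 1`:
`D_{0λ} ∩ D_{1∞}`, `D_{λx} ∩ D_{1∞}`, `D_{0λ} ∩ D_{x1}`, `D_{λx} ∩ D_{∞0}`, `D_{x1} ∩ D_{∞0}`
(`u = 0` is the first divisor, `v = 0` the second one);
`5, …, 14` are the charts number `0,2,4,5,6,8,9,11,13,14` of the table of helper242. -/
noncomputable def kap : Fin 15 → ℂ × ℂ → ℂ × ℂ
  | 0, w => (w.2, w.1 * w.2)
  | 1, w => (w.2, w.2 * (1 - w.1) / (1 - w.1 * w.2))
  | 2, w => ((1 - w.2) / (1 - w.1 * w.2), w.1 * (1 - w.2) / (1 - w.1 * w.2))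
  | 3, w => ((1 - w.2) / (1 - w.1 * w.2), 1 - w.2)
  | 4, w => (1 - w.1 * w.2, 1 - w.2)
  | 5, w => (w.1 * w.2, w.2)
  | 6, w => (w.1, 1 / w.2)
  | 7, w => (1 / w.2, w.1)
  | 8, w => (1 / w.1, 1 / (w.1 * w.2))
  | 9, w => (- w.1 / (1 - w.1), 1 / (1 - w.2))
  | 10, w => (1 / (1 - w.1), - (1 - w.2) / (w.2 * (1 - w.1)))
  | 11, w => (1 / (w.1 * w.2), 1 / w.1)
  | 12, w => (1 / (1 - w.1), 1 / (1 - w.1 * w.2))
  | 13, w => (1 / w.2, (1 - w.1 * w.2) / (w.2 * (1 - w.1)))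
  | 14, w => (1 / w.1, (1 - w.2) / (1 - w.1 * w.2))

/-- The coverings of `U` of all `G`-sets.  `kap ν : W → U` is the (inverse of the) chart of the node
`ν`, `a ν`, `b ν` are the monodromies of the small positive loops around `u = 0` and `v = 0`.
The nodes `0, …, 4` are the five vertices of the real chamber `0 < λ < x < 1`, on which
their coordinates `u`, `v` are in `(0,1)`. -/
structure TorData (G : Type) [Group G] (a b : Fin 15 → G) where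
  Tot : (F : Type) → [MulAction G F] → Type
  top : (F : Type) → [MulAction G F] → TopologicalSpace (Tot F)
  pr : (F : Type) → [MulAction G F] → Tot F → U
  cov : ∀ (F : Type) [MulAction G F], @IsCoveringMap (Tot F) U (top F) _ (pr F)
  map : {F F' : Type} → [MulAction G F] → [MulAction G F'] → (F →[G] F') → Tot F → Tot F'
  map_cont : ∀ {F F' : Type} [MulAction G F] [MulAction G F'] (f : F →[G] F'),
    @Continuous _ _ (top F) (top F') (map f)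
  map_pr : ∀ {F F' : Type} [MulAction G F] [MulAction G F'] (f : F →[G] F') (y : Tot F),
    pr F' (map f y) = pr F y
  /-- the lift over `Rt` -/
  L : Fin 15 → (F : Type) → [MulAction G F] → ℂ × ℂ → F → Tot F
  L_cont : ∀ (ν : Fin 15) (F : Type) [MulAction G F] (s : F),
    @ContinuousOn _ _ _ (top F) (fun z => L ν F z s) Rt
  L_pr : ∀ (ν : Fin 15) (F : Type) [MulAction G F] (s : F), ∀ z ∈ Rt,
    (pr F (L ν F z s) : ℂ × ℂ) = kap ν (exp z.1, exp z.2)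
  L_inj : ∀ (ν : Fin 15) (F : Type) [MulAction G F] (s s' : F), ∀ z ∈ Rt,
    L ν F z s = L ν F z s' → s = s'
  L_surj : ∀ (ν : Fin 15) (F : Type) [MulAction G F], ∀ z ∈ Rt, ∀ y : Tot F,
    (pr F y : ℂ × ℂ) = kap ν (exp z.1, exp z.2) → ∃ s, L ν F z s = y
  L_u : ∀ (ν : Fin 15) (F : Type) [MulAction G F] (s : F), ∀ z ∈ Rt,
    L ν F (z.1 + 2 * Real.pi * I, z.2) s = L ν F z (a ν • s)
  L_v : ∀ (ν : Fin 15) (F : Type) [MulAction G F] (s : F), ∀ z ∈ Rt,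
    L ν F (z.1, z.2 + 2 * Real.pi * I) s = L ν F z (b ν • s)
  L_map : ∀ (ν : Fin 15) {F F' : Type} [MulAction G F] [MulAction G F'] (f : F →[G] F') (s : F),
    ∀ z ∈ Rt, map f (L ν F z s) = L ν F' z (f s)
  /-- normalisation: the nodes `0, …, 4` see the same sheet over the chamber `0 < λ < x < 1` -/
  base : ∀ (ν ν' : Fin 15), ν < 5 → ν' < 5 → ∀ (F : Type) [MulAction G F] (s : F)
    (u v u' v' : ℝ), 0 < u → u < 1 → 0 < v → v < 1 → 0 < u' → u' < 1 → 0 < v' → v' < 1 →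
    kap ν (u, v) = kap ν' (u', v') →
    L ν F (Real.log u, Real.log v) s = L ν' F (Real.log u', Real.log v') s
  conn : ∀ (F : Type) [MulAction G F], MulAction.IsPretransitive G F → Nonempty F →
    @ConnectedSpace (Tot F) (top F)

/-! ### the standard pairs -/

section
variable {G : Type} [Group G] (A : Arr G)

/-- `c4` -/
def Arr.c4 : G := (A.c1 * A.c2 * A.c3)⁻¹
/-- loops around the two components over `λ = 0`, `1`, `∞`: `t''` is the component which contains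
`c3, c4` (`λ=0`), `c1, c4` (`λ=1`), `c1c2c1⁻¹, c4` (`λ=∞`), `t'` the other one. -/
def Arr.t0'' : G := A.T0
def Arr.t0' : G := (A.c1 * A.c2)⁻¹ * A.T0
def Arr.t1'' : G := A.T1
def Arr.t1' : G := (A.c2 * A.c3)⁻¹ * A.T1
def Arr.ti'' : G := ((A.c1 * A.c2 * A.c3)⁻¹ * A.T0 * A.T1)⁻¹
def Arr.ti' : G := (A.c1 * A.c3)⁻¹ * A.ti''

/-- the fifteen standard commuting pairs (one for each crossing of `M_{0,5}`-bar) -/
def Arr.std : Fin 15 → G × G :=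
  ![(A.t0'', A.t0'), (A.c2, A.t0'), (A.t0'', A.c3), (A.c2, A.t1'), (A.c3, A.t1'),
    (A.c1, A.t0'), (A.t0'', A.c4), (A.c1, A.t1''), (A.c4, A.t1''), (A.t1', A.t1''),
    (A.c1, A.ti'), (A.c3, A.ti'), (A.c1 * A.c2 * A.c1⁻¹, A.ti''), (A.c4, A.ti''), (A.ti', A.ti'')]

end

/-- `(a,b)` and `(x,y)` are conjugate up to order and inverses -/
def ConjPair {G : Type} [Group G] (a b x y : G) : Prop :=
  ∃ (g : G), (∃ ε δ : ℤˣ, (a = g * x ^ (ε : ℤ) * g⁻¹ ∧ b = g * y ^ (δ : ℤ) * g⁻¹) ∨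
    (a = g * y ^ (ε : ℤ) * g⁻¹ ∧ b = g * x ^ (δ : ℤ) * g⁻¹))

/-- **Block TOR.** -/
def TorSpec : Prop :=
  ∀ (G : Type) [Group G] (A : Arr G), ∃ a b : Fin 15 → G,
    Nonempty (TorData G a b) ∧
    (∀ ν, ∃ μ, ConjPair (a ν) (b ν) (A.std μ).1 (A.std μ).2) ∧
    -- node 0: `u = 0` is `D_{0λ}` (loop `t0''`), `v = 0` is `D_{1∞}` (loop `t0'`)
    (∃ ε : ℤˣ, (a 0 = A.t0'' ^ (ε : ℤ) ∧ b 0 = A.t0' ^ (ε : ℤ)) ∧
      a 1 = A.c2 ^ (-(ε : ℤ)) ∧ b 1 = A.t0' ^ (ε : ℤ) ∧ a 2 = A.t0'' ^ (ε : ℤ) ∧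
      b 2 = A.c3 ^ (-(ε : ℤ)))

end Vale.Agent.P300.Tor
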